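import Vale.Agent.P011N.Cl.T.E6
import Vale.Agent.P011.E6.Ids2

/-!
Elementary elements of the group of the cubic norm: transvections, permutations of the indices,
diagonal elements; elimination.
-/

namespace Vale.Agent.P011N.Cl

open Vale.Agent.P011.MPQ Vale.Agent.P011.D4 Vale.Agent.P011.D4.Oct Vale.Agent.P011.E6 Equiv Module

variable {F : Type} [Field F] {A B C A' B' C' : Fˣ}

/-- A pair of linear bijections. -/
def pr6 (g g' : Alb A B C ≃ₗ[F] Alb A' B' C') : V6 A B C ≃ V6 A' B' C' :=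
  g.toEquiv.prodCongr g'.toEquiv

theorem pr6_apply (g g' : Alb A B C ≃ₗ[F] Alb A' B' C') (x : V6 A B C) :
    pr6 g g' x = (g x.1, g' x.2) := rfl

theorem pr6_inl (g g' : Alb A B C ≃ₗ[F] Alb A' B' C') (x : Alb A B C) :
    pr6 g g' (x, 0) = (g x, 0) := by rw [pr6_apply, map_zero]

theorem sim6_pr6 {g g' : Alb A B C ≃ₗ[F] Alb A' B' C'} {ν₁ ν₂ l : F}
    (h1 : ∀ x, Alb.cub (g x) = ν₁ * Alb.cub x) (h2 : ∀ x, Alb.cub (g' x) = ν₂ * Alb.cub x)
    (h3 : ∀ x y, Alb.tf (g x) (g' y) = l * Alb.tf x y) (h4 : ν₁ ≠ 0 ∧ ν₂ ≠ 0 ∧ l ≠ 0) :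
    Sim6 id false ν₁ ν₂ l (pr6 g g') where
  semi t x y := by simp [pr6_apply]
  c1 x := h1 x.1
  c2 x := h2 x.2
  tf x := h3 x.1 x.2
  ne := h4

theorem pr6_mem {g g' : Alb A B C ≃ₗ[F] Alb A B C} (h1 : ∀ x, Alb.cub (g x) = Alb.cub x)
    (h2 : ∀ x, Alb.cub (g' x) = Alb.cub x) (h3 : ∀ x y, Alb.tf (g x) (g' y) = Alb.tf x y) :
    (pr6 g g' : Perm (V6 A B C)) ∈ S6 A B C :=
  Subgroup.subset_closure (sim6_pr6 (fun x => by rw [h1, one_mul]) (fun x => by rw [h2, one_mul])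
    (fun x y => by rw [h3, one_mul]) ⟨one_ne_zero, one_ne_zero, one_ne_zero⟩)

/-- The exchange of the two summands. -/
def sw6 : Perm (V6 A B C) := Equiv.prodComm _ _

theorem sw6_apply (x : V6 A B C) : sw6 x = (x.2, x.1) := rfl

theorem sim6_sw6 : Sim6 id true 1 1 1 (sw6 : Perm (V6 A B C)) where
  semi _ _ _ := rfl
  c1 _ := (one_mul _).symm
  c2 _ := (one_mul _).symm
  tf x := by rw [one_mul, id, Alb.tf_comm]; rfl
  ne := ⟨one_ne_zero, one_ne_zero, one_ne_zero⟩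

/-- The cyclic permutation of the indices. -/
def rot : Alb A B C ≃ₗ[F] Alb A B C where
  toFun x := ⟨x.d3, x.d1, x.d2, x.x3, x.x1, x.x2⟩
  invFun x := ⟨x.d2, x.d3, x.d1, x.x2, x.x3, x.x1⟩
  left_inv _ := rfl
  right_inv _ := rfl
  map_add' _ _ := rfl
  map_smul' _ _ := rfl

theorem rot_apply (x : Alb A B C) : rot x = ⟨x.d3, x.d1, x.d2, x.x3, x.x1, x.x2⟩ := rfl

theorem cub_rot (x : Alb A B C) : Alb.cub (rot x) = Alb.cub x := by
  simp only [Alb.cub, rot_apply, tr_cyc x.x3]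
  ring

theorem tf_rot (x y : Alb A B C) : Alb.tf (rot x) (rot y) = Alb.tf x y := by
  simp only [Alb.tf, rot_apply]
  ring

theorem rot_mem : (pr6 rot rot : Perm (V6 A B C)) ∈ S6 A B C := pr6_mem cub_rot cub_rot tf_rot

/-- The exchange of the first two indices. -/
def swp : Alb A B C ≃ₗ[F] Alb A B C where
  toFun x := ⟨x.d2, x.d1, x.d3, star x.x2, star x.x1, star x.x3⟩
  invFun x := ⟨x.d2, x.d1, x.d3, star x.x2, star x.x1, star x.x3⟩
  left_inv x := by ext1 <;> simp only [star_star]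
  right_inv x := by ext1 <;> simp only [star_star]
  map_add' x y := by ext1 <;> simp only [Alb.d1_add, Alb.d2_add, Alb.d3_add, Alb.x1_add,
    Alb.x2_add, Alb.x3_add, star_add]
  map_smul' t x := by ext1 <;> simp only [Alb.d1_smul, Alb.d2_smul, Alb.d3_smul, Alb.x1_smul,
    Alb.x2_smul, Alb.x3_smul, star_smul_oct, RingHom.id_apply]

theorem swp_apply (x : Alb A B C) :
    swp x = ⟨x.d2, x.d1, x.d3, star x.x2, star x.x1, star x.x3⟩ := rfl

theorem cub_swp (x : Alb A B C) : Alb.cub (swp x) = Alb.cub x := by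
  simp only [Alb.cub, swp_apply, tr_star, Oct.norm_star, tr_cyc x.x3]
  ring

theorem tf_swp (x y : Alb A B C) : Alb.tf (swp x) (swp y) = Alb.tf x y := by
  simp only [Alb.tf, swp_apply, bil_star_star]
  ring

theorem swp_mem : (pr6 swp swp : Perm (V6 A B C)) ∈ S6 A B C := pr6_mem cub_swp cub_swp tf_swp

theorem wt_mem {g : Fin 3 → Fˣ} (hg : Alb.gam g = 1) :
    (pr6 (Alb.wtE g) (Alb.wtE g⁻¹) : Perm (V6 A B C)) ∈ S6 A B C :=
  pr6_mem (fun x => by rw [Alb.wtE_apply, Alb.cub_wt, hg, one_pow, one_mul])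
    (fun x => by rw [Alb.wtE_apply, Alb.cub_wt, Alb.gam_inv, hg, inv_one, one_pow, one_mul])
    fun x y => by rw [Alb.wtE_apply, Alb.wtE_apply, Alb.tf_wt, Alb.wt_wt_inv]

/-- The transvection which adds a multiple of the first row to the second row. -/
def tv (v : Oct A B C) : Alb A B C ≃ₗ[F] Alb A B C where
  toFun x := ⟨x.d1, x.d2 + bil v x.x3 + x.d1 * norm v, x.d3, x.x1 + star (x.x2 * v), x.x2,
    x.x3 + x.d1 • v⟩
  invFun x := ⟨x.d1, x.d2 - bil v x.x3 + x.d1 * norm v, x.d3, x.x1 - star (x.x2 * v), x.x2,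
    x.x3 - x.d1 • v⟩
  left_inv x := by
    ext1 <;> simp only [bil_add_right, bil_smul_right, bil_self, add_sub_cancel_right]
    ring
  right_inv x := by
    ext1 <;> simp only [bil_sub_right, bil_smul_right, bil_self, sub_add_cancel]
    ring
  map_add' x y := by
    ext1 <;> simp only [Alb.d1_add, Alb.d2_add, Alb.d3_add, Alb.x1_add, Alb.x2_add, Alb.x3_add,
      bil_add_right, add_mul, star_add, add_smul] <;> abel
  map_smul' t x := by
    ext1 <;> simp only [Alb.d1_smul, Alb.d2_smul, Alb.d3_smul, Alb.x1_smul, Alb.x2_smul,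
      Alb.x3_smul, bil_smul_right, smul_mul_oct, star_smul_oct, smul_add, mul_smul,
      RingHom.id_apply]
    ring

theorem tv_apply (v : Oct A B C) (x : Alb A B C) : tv v x = ⟨x.d1,
    x.d2 + bil v x.x3 + x.d1 * norm v, x.d3, x.x1 + star (x.x2 * v), x.x2, x.x3 + x.d1 • v⟩ := rfl

/-- The transvection which adds a multiple of the second row to the first row. -/
def tw (v : Oct A B C) : Alb A B C ≃ₗ[F] Alb A B C := (swp.trans (tv (star v))).trans swp

theorem tw_apply (v : Oct A B C) (x : Alb A B C) : tw v x = ⟨x.d1 + bil v x.x3 + x.d2 * norm v,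
    x.d2, x.d3, x.x1, x.x2 + star (v * x.x1), x.x3 + x.d2 • v⟩ := by
  simp only [tw, LinearEquiv.trans_apply, swp_apply, tv_apply, star_star, bil_star_star,
    Oct.norm_star, star_add, star_smul_oct, star_mul]

theorem cub_tv (v : Oct A B C) (x : Alb A B C) : Alb.cub (tv v x) = Alb.cub x := by
  have h1 : ∀ w, bil (star (x.x2 * v) * x.x2 * w) 1 = norm x.x2 * bil v w := fun w => by
    rw [star_mul, mul_star_mul', smul_mul_oct, bil_smul_left, bil_mul_left, star_star, mul_one,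
      bil_comm]
  simp only [Alb.cub, tv_apply, norm_add, Oct.norm_star, Oct.norm_mul, Oct.norm_smul, add_mul,
    mul_add, bil_add_left, mul_smul_oct, bil_smul_left, bil_smul_right, h1, Alb.tri1', bil_self,
    bil_comm x.x3 v]
  ring

theorem cub_tw (v : Oct A B C) (x : Alb A B C) : Alb.cub (tw v x) = Alb.cub x :=
  (cub_swp _).trans ((cub_tv _ _).trans (cub_swp _))

theorem tf_tv (v : Oct A B C) (x y : Alb A B C) : Alb.tf (tv v x) y = Alb.tf x (tw v y) := by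
  simp only [Alb.tf, tv_apply, tw_apply, bil_add_left, bil_add_right, bil_smul_left,
    bil_smul_right, Alb.tri3, Alb.tri1', bil_comm x.x3 v]
  ring

theorem tw_neg (v : Oct A B C) (x : Alb A B C) : tw v (tw (-v) x) = x := by
  ext1 <;> simp only [tw_apply, bil_neg_left, bil_add_right, smul_neg, bil_neg_right,
    bil_smul_right, bil_self, Oct.norm_neg, neg_mul, star_neg, neg_add_cancel_right]
  ring

theorem tv_mem (v : Oct A B C) : (pr6 (tv v) (tw (-v)) : Perm (V6 A B C)) ∈ S6 A B C :=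
  pr6_mem (cub_tv _) (cub_tw _) fun x y => by rw [tf_tv, tw_neg]

theorem tw_mem (v : Oct A B C) : (pr6 (tw (-v)) (tv v) : Perm (V6 A B C)) ∈ S6 A B C :=
  pr6_mem (cub_tw _) (cub_tv _) fun x y => by rw [Alb.tf_comm, tf_tv, tw_neg, Alb.tf_comm]

/-- The two elements of the first summand belong to the same orbit. -/
def Orb (x y : Alb A B C) : Prop := ∃ g ∈ S6 A B C, g (x, 0) = (y, 0)

theorem Orb.refl (x : Alb A B C) : Orb x x := ⟨1, (S6 A B C).one_mem, rfl⟩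

theorem Orb.trans {x y z : Alb A B C} (h : Orb x y) (h' : Orb y z) : Orb x z := by
  obtain ⟨g, h1, h2⟩ := h
  obtain ⟨g', h3, h4⟩ := h'
  exact ⟨g' * g, (S6 A B C).mul_mem h3 h1, by rw [Perm.mul_apply, h2, h4]⟩

theorem Orb.symm {x y : Alb A B C} (h : Orb x y) : Orb y x := by
  obtain ⟨g, h1, h2⟩ := h
  exact ⟨g⁻¹, (S6 A B C).inv_mem h1, Perm.inv_eq_iff_eq.2 h2.symm⟩

theorem orb_rot (x : Alb A B C) : Orb x (rot x) := ⟨_, rot_mem, pr6_inl _ _ _⟩

theorem orb_swp (x : Alb A B C) : Orb x (swp x) := ⟨_, swp_mem, pr6_inl _ _ _⟩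

theorem orb_tv (v : Oct A B C) (x : Alb A B C) : Orb x (tv v x) := ⟨_, tv_mem v, pr6_inl _ _ _⟩

theorem orb_tw (v : Oct A B C) (x : Alb A B C) : Orb x (tw v x) := by
  have h := tw_mem (-v)
  rw [neg_neg] at h
  exact ⟨_, h, pr6_inl _ _ _⟩

theorem orb_wt {g : Fin 3 → Fˣ} (hg : Alb.gam g = 1) (x : Alb A B C) : Orb x (Alb.wt g x) :=
  ⟨_, wt_mem hg, pr6_inl _ _ _⟩

theorem Orb.cub [CharZero F] {x y : Alb A B C} (h : Orb x y) : Alb.cub y = Alb.cub x := by
  obtain ⟨g, h1, h2⟩ := h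
  have h3 := (mem_S6.1 h1).c1 (x, 0)
  rwa [h2, one_mul] at h3

/-- **Elimination.** -/
theorem orb_diag {x : Alb A B C} (h1 : x.d1 ≠ 0) (h2 : x.d1 * x.d2 - norm x.x3 ≠ 0) :
    ∃ s t : F, s ≠ 0 ∧ Orb x ⟨x.d1, s, t, 0, 0, 0⟩ := by
  obtain ⟨s, u, hs, k1⟩ : ∃ s u, s ≠ 0 ∧ Orb x ⟨x.d1, s, x.d3, u, x.x2, 0⟩ := by
    have h := orb_tv (-(x.d1⁻¹ • x.x3)) x
    rw [tv_apply, smul_neg, smul_inv_smul₀ h1, add_neg_cancel] at h
    refine ⟨_, _, fun h0 => h2 ?_, h⟩
    rw [bil_neg_left, bil_smul_left, bil_self, Oct.norm_neg, Oct.norm_smul] at h0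
    field_simp at h0
    linear_combination h0
  obtain ⟨t, k2⟩ : ∃ t, Orb x ⟨t, x.d1, s, 0, u, 0⟩ := by
    have h := (k1.trans (orb_rot _)).trans (orb_tw (-(x.d1⁻¹ • x.x2)) _)
    simp only [tw_apply, rot_apply, smul_neg, smul_inv_smul₀ h1, add_neg_cancel, mul_zero,
      star_zero, add_zero] at h
    exact ⟨_, h⟩
  have h := ((k2.trans (orb_rot _)).trans (orb_tv (-(s⁻¹ • u)) _)).trans (orb_rot _)
  simp only [tv_apply, rot_apply, smul_neg, smul_inv_smul₀ hs, add_neg_cancel, zero_mul,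
    star_zero, add_zero] at h
  exact ⟨_, _, hs, h⟩

end Vale.Agent.P011N.Cl
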