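import Vale.Agent.P011N.Cl.N6.Tv

/-!
The invariants of the group of the cubic norm.
-/

namespace Vale.Agent.P011N.Cl.N6

open Vale.Agent.P011.MPQ Vale.Agent.P011.D4 Vale.Agent.P011.D4.Oct Vale.Agent.P011.E6 Equiv Module

variable {F : Type} [Field F] {A B C : Fˣ}

theorem eq_top_of_orb {W : Submodule F (Alb A B C)} (hW : ∀ x ∈ W, ∀ y, Orb x y → y ∈ W)
    (h1 : Alb.e1 ∈ W) (x : Alb A B C) : x ∈ W := by
  have hr : ∀ x ∈ W, rot x ∈ W := fun x hx => hW x hx _ (orb_rot x)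
  have h2 : ∀ v, (⟨0, 0, 0, 0, 0, v⟩ : Alb A B C) ∈ W := fun v => by
    have h := W.sub_mem (W.sub_mem (hW _ h1 _ (orb_tv v _)) h1) (W.smul_mem (norm v) (hr _ h1))
    convert h using 1
    ext1 <;> simp [tv_apply, rot_apply, Alb.e1]
  have h := W.add_mem (W.add_mem (W.add_mem (W.smul_mem x.d1 h1) (W.smul_mem x.d2 (hr _ h1)))
    (W.smul_mem x.d3 (hr _ (hr _ h1))))
    (W.add_mem (W.add_mem (hr _ (h2 x.x1)) (hr _ (hr _ (h2 x.x2)))) (h2 x.x3))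
  convert h using 1
  ext1 <;> simp [rot_apply, Alb.e1]

variable [CharZero F]

/-- A regular diagonal element. -/
def g0 (F : Type) [Field F] [CharZero F] : Fin 3 → Fˣ :=
  ![Units.mk0 2 two_ne_zero, Units.mk0 3 three_ne_zero, (Units.mk0 6 (by norm_num))⁻¹]

theorem gam_g0 : Alb.gam (g0 F) = 1 := by
  simp [Alb.gam, g0]
  norm_num

theorem wt_e1 : Alb.wt (g0 F) (Alb.e1 : Alb A B C) = (4 : F) • Alb.e1 := by
  ext1 <;> simp [Alb.wt, g0, Alb.e1]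
  norm_num

omit [CharZero F] in
theorem eq_zero_of_smul {s t : F} {w : Oct A B C} (h : s • w = t • w) (hst : s ≠ t) : w = 0 := by
  rw [← sub_eq_zero, ← sub_smul] at h
  exact (smul_eq_zero.1 h).resolve_left (sub_ne_zero.2 hst)

theorem eig1 {u : Alb A B C} (h : Alb.wt (g0 F) u = (4 : F) • u) : u = u.d1 • Alb.e1 := by
  have k2 := congrArg Alb.d2 h
  have k3 := congrArg Alb.d3 h
  have k4 := eq_zero_of_smul (congrArg Alb.x1 h) (by simp [g0]; norm_num)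
  have k5 := eq_zero_of_smul (congrArg Alb.x2 h) (by simp [g0]; norm_num)
  have k6 := eq_zero_of_smul (congrArg Alb.x3 h) (by simp [g0]; norm_num)
  simp [Alb.wt, g0] at k2 k3
  norm_num at k2 k3
  ext1 <;> simp [Alb.e1, *]

theorem eig2 {u : Alb A B C} (h : Alb.wt (g0 F)⁻¹ u = (4 : F) • u) : u = 0 := by
  have k1 := congrArg Alb.d1 h
  have k2 := congrArg Alb.d2 h
  have k3 := congrArg Alb.d3 h
  have k4 := eq_zero_of_smul (congrArg Alb.x1 h) (by simp [g0]; norm_num)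
  have k5 := eq_zero_of_smul (congrArg Alb.x2 h) (by simp [g0]; norm_num)
  have k6 := eq_zero_of_smul (congrArg Alb.x3 h) (by simp [g0]; norm_num)
  simp [Alb.wt, g0] at k1 k2 k3
  norm_num at k1 k2 k3
  ext1 <;> simp [*]

theorem comm_inl (n : V6 A B C →ₗ[F] V6 A B C) (hn : ∀ g ∈ S6 A B C, ∀ x, n (g x) = g (n x)) :
    ∃ l : F, ∀ x, n (x, 0) = (l • x, 0) := by
  have h1 := hn _ (wt_mem gam_g0) (Alb.e1, 0)
  have h2 : ∀ (l : F) (x : Alb A B C), ((l • x, 0) : V6 A B C) = l • (x, 0) := fun l x => by simp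
  rw [pr6_inl, Alb.wtE_apply, wt_e1, h2, map_smul] at h1
  obtain ⟨l, hl⟩ : ∃ l : F, n (Alb.e1, 0) = l • (Alb.e1, 0) :=
    ⟨_, Prod.ext (eig1 (congrArg Prod.fst h1).symm)
      ((eig2 (congrArg Prod.snd h1).symm).trans (smul_zero _).symm)⟩
  have h3 : ∀ x, x ∈ LinearMap.eqLocus (n ∘ₗ LinearMap.inl F _ _)
      (l • LinearMap.inl F (Alb A B C) (Alb A B C)) ↔ n (x, 0) = l • (x, 0) := fun x => Iff.rfl
  refine ⟨l, fun x => ((h3 x).1 (eq_top_of_orb ?_ hl x)).trans (h2 _ _).symm⟩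
  rintro x hx y ⟨g, h4, h5⟩
  rw [h3] at hx ⊢
  rw [← h5, hn g h4, hx, (semi_one.2 (mem_S6.1 h4).semi).smul]
  rfl

theorem sw_mem {g : Perm (V6 A B C)} (hg : g ∈ S6 A B C) : sw6 * g * sw6⁻¹ ∈ S6 A B C :=
  (sim6_one.2 sim6_sw6).conj_S6 hg

/-- **The commutant.** -/
theorem comm6 (n : V6 A B C →ₗ[F] V6 A B C) (hn : ∀ g ∈ S6 A B C, ∀ x, n (g x) = g (n x)) :
    ∃ l₁ l₂ : F, ∀ x, n x = (l₁ • x.1, l₂ • x.2) := by
  obtain ⟨l₁, h1⟩ := comm_inl n hn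
  obtain ⟨l₂, h2⟩ := comm_inl ((LinearEquiv.prodComm F _ _).toLinearMap ∘ₗ n ∘ₗ
    (LinearEquiv.prodComm F _ _).toLinearMap) fun g hg x =>
      congrArg Prod.swap (hn _ (sw_mem hg) x.swap)
  refine ⟨l₁, l₂, fun x => ?_⟩
  have h3 : n (0, x.2) = (0, l₂ • x.2) := congrArg Prod.swap (h2 x.2)
  have h4 : x = (x.1, 0) + (0, x.2) := by simp
  rw [h4, map_add, h1, h3]
  simp

/-- The trace form. -/
def tfL (A B C : Fˣ) : Alb A B C →ₗ[F] Alb A B C →ₗ[F] F :=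
  LinearMap.mk₂ F Alb.tf Alb.tf_add_left Alb.tf_smul_left Alb.tf_add_right
    fun t x y => Alb.tf_smul_right t x y

theorem exists_tf (f : Alb A B C →ₗ[F] F) : ∃ u, ∀ y, f y = Alb.tf u y := by
  have h1 : Function.Injective (tfL A B C) := fun x y h =>
    Alb.eq_of_tf fun z => LinearMap.congr_fun h z
  obtain ⟨u, hu⟩ := (LinearMap.injective_iff_surjective_of_finrank_eq_finrank
    (Subspace.dual_finrank_eq (K := F) (V := Alb A B C)).symm).1 h1 f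
  exact ⟨u, fun y => (LinearMap.congr_fun hu y).symm⟩

/-- **The invariant pairing is unique.** -/
theorem tf_unique (T : Alb A B C →ₗ[F] Alb A B C →ₗ[F] F)
    (hT : ∀ g ∈ S6 A B C, ∀ v, T (g v).1 (g v).2 = T v.1 v.2) :
    ∃ l : F, ∀ x y, T x y = l * Alb.tf x y := by
  obtain ⟨u, hu⟩ := exists_tf (T Alb.e1)
  have h1 : Alb.wt (g0 F) u = (4 : F) • u := Alb.eq_of_tf fun y => by
    have h := hT _ (wt_mem gam_g0) (Alb.e1, Alb.wt (g0 F) y)
    simp only [pr6_apply, Alb.wtE_apply, wt_e1, Alb.wt_inv_wt, map_smul, LinearMap.smul_apply,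
      hu, smul_eq_mul] at h
    rw [Alb.tf_wt, Alb.tf_smul_left, h]
  refine ⟨u.d1, fun x y => LinearMap.congr_fun (eq_top_of_orb
    (W := LinearMap.eqLocus T (u.d1 • tfL A B C)) ?_ (LinearMap.ext fun y => ?_) x) y⟩
  · rintro x hx z ⟨g, h3, h4⟩
    refine LinearMap.ext fun w => ?_
    obtain ⟨v, hv⟩ := g.surjective (0, w)
    have h5 := sim6_one.2 (mem_S6.1 h3)
    have h6 : v.1 = 0 := by
      rw [← Perm.inv_eq_iff_eq.2 hv.symm]
      exact h5.symm.fst_zero rfl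
    have h7 : g ((x, 0) + v) = (z, w) := by rw [h5.semi.add, h4, hv]; simp
    have h8 := hT g h3 ((x, 0) + v)
    have h9 := h5.tf ((x, 0) + v)
    rw [h7] at h8 h9
    simp only [Prod.fst_add, Prod.snd_add, h6, add_zero, zero_add, one_mul,
      AlgEquiv.one_apply] at h8 h9
    change T z w = u.d1 * Alb.tf z w
    rw [h8, h9]
    exact LinearMap.congr_fun hx v.2
  · change T Alb.e1 y = u.d1 * Alb.tf Alb.e1 y
    rw [hu, ← Alb.tf_smul_left, ← eig1 h1]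

/-- **The invariant cubic form is unique.** -/
theorem cub_unique {c : Alb A B C → F} (hc : c ∈ PF F (Alb A B C))
    (h3 : ∀ (t : F) x, c (t • x) = t ^ 3 * c x) (hi : ∀ x y, Orb x y → c y = c x) :
    ∃ κ : F, ∀ x, c x = κ * Alb.cub x := by
  obtain ⟨p, hp⟩ := PF.poly ![Alb.e1, Alb.e2, Alb.e3] hc
  have h0 : ∀ t : Fin 3 → F, ∑ i, t i • (![Alb.e1, Alb.e2, Alb.e3] : Fin 3 → Alb A B C) i =
      ⟨t 0, t 1, t 2, 0, 0, 0⟩ := fun t => by
    ext1 <;> simp [Fin.sum_univ_three, Alb.e1, Alb.e2, Alb.e3]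
  simp only [h0] at hp
  set κ := c ⟨1, 1, 1, 0, 0, 0⟩ with hκ
  have h1 : p = MvPolynomial.C κ * MvPolynomial.X 0 * MvPolynomial.X 1 * MvPolynomial.X 2 := by
    refine MvPolynomial.funext_set (fun _ => Set.range fun n : ℕ => (((n + 1) ^ 6 : ℕ) : F))
      (fun _ => Set.infinite_range_of_injective fun m n h => Nat.succ_injective
        (Nat.pow_left_injective (by norm_num) (Nat.cast_injective h))) fun t ht => ?_
    choose n hn using fun j => ht j (Set.mem_univ j)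
    have h2 : ∀ j, ((n j + 1 : ℕ) : F) ≠ 0 := fun j => Nat.cast_ne_zero.2 (Nat.succ_ne_zero _)
    simp only [Nat.cast_pow] at hn
    obtain ⟨s, hs, hs'⟩ : ∃ s : Fin 3 → Fˣ, (∀ j, (s j : F) ≠ 0) ∧ ∀ j, t j = (s j : F) ^ 6 :=
      ⟨fun j => Units.mk0 _ (h2 j), h2, fun j => (hn j).symm⟩
    have h4 := hi _ _ (orb_wt (g := fun j => s j ^ 3 / (s 0 * s 1 * s 2))
      (by simp [Alb.gam]; field_simp) ⟨1, 1, 1, 0, 0, 0⟩)
    have h5 : (⟨t 0, t 1, t 2, 0, 0, 0⟩ : Alb A B C) = ((s 0 : F) * s 1 * s 2) ^ 2 •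
        Alb.wt (fun j => s j ^ 3 / (s 0 * s 1 * s 2)) ⟨1, 1, 1, 0, 0, 0⟩ := by
      ext1 <;> simp [Alb.wt, hs'] <;> field_simp
    rw [← hp, h5, h3, h4]
    simp [hs']
    ring
  refine ⟨κ, fun x => ?_⟩
  by_contra hx
  obtain ⟨y, -, hy⟩ := exists_ne_all (F := F) (⊤ : AddSubmonoid (Alb A B C)) (by simp)
    (Finset.univ : Finset (Fin 3))
    (f := ![fun x => c x - κ * Alb.cub x, fun x => x.d1, fun x => x.d1 * x.d2 - norm x.x3])
    (fun i _ => by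
      fin_cases i
      · exact PF.sub hc (PF.mul (PF.const _) PM.id.acub)
      · exact PM.id.ad 0
      · exact PF.sub (PF.mul (PM.id.ad 0) (PM.id.ad 1)) (PM.id.ax 2).onorm)
    (fun i _ => by
      fin_cases i
      · exact ⟨x, sub_ne_zero.2 hx⟩
      · exact ⟨Alb.e1, one_ne_zero⟩
      · exact ⟨⟨1, 1, 0, 0, 0, 0⟩, by simp⟩)
  obtain ⟨s, t, -, h4⟩ := orb_diag (hy 1 (Finset.mem_univ _)) (hy 2 (Finset.mem_univ _))
  refine hy 0 (Finset.mem_univ _) (sub_eq_zero.2 ?_)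
  have h5 := hp ![y.d1, s, t]
  rw [h1] at h5
  rw [← hi _ _ h4, ← h4.cub]
  simpa [Alb.cub, mul_assoc] using h5

end Vale.Agent.P011N.Cl.N6
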