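import Vale.Agent.P011N.Cl.N6.Inv
import Vale.Agent.P011.H900.BrgE

/-!
The normalizer of the group of the cubic norm consists of similitudes.
-/

namespace Vale.Agent.P011N.Cl.N6

open Vale.Agent.P011.MPQ Vale.Agent.P011.D4 Vale.Agent.P011.D4.Oct Vale.Agent.P011.E6 Equiv Module

section nrm

variable {F : Type} [Field F] [CharZero F] {A B C : Fˣ} {γ : Gl F} {φ ψ : Perm (V6 A B C)}

/-- The bijection normalizes the group. -/
def Nm (φ : Perm (V6 A B C)) : Prop := ∀ g ∈ S6 A B C, φ * g * φ⁻¹ ∈ S6 A B C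

omit [CharZero F] in
theorem Nm.mul (h : Nm φ) (h' : Nm ψ) : Nm (φ * ψ) := fun g hg => by
  have h1 := h _ (h' g hg)
  rwa [← mul_assoc, ← mul_assoc, mul_assoc _ ψ⁻¹, ← mul_inv_rev] at h1

theorem nm_sw : Nm (sw6 : Perm (V6 A B C)) := fun _ => sw_mem

theorem Nm.exists (h : Nm φ) {g : Perm (V6 A B C)} (hg : g ∈ S6 A B C) :
    ∃ g' : Perm (V6 A B C), Sim6 (⇑(1 : Gl F)) false 1 1 1 g' ∧ ∀ x, φ (g x) = g' (φ x) :=
  ⟨_, mem_S6.1 (h g hg), fun x => by simp⟩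

theorem cub_fst (hs : Semi γ φ) (hn : Nm φ) (h2 : ∀ y, (φ (0, y)).1 = 0) :
    ∃ ν : F, ν ≠ 0 ∧ ∀ x, Alb.cub (φ x).1 = ν * γ (Alb.cub x.1) := by
  obtain ⟨κ, hκ⟩ := cub_unique (c := fun x => γ.symm (Alb.cub (φ (x, 0)).1))
    (PF.semi PM.id.fst.acub (hs.comp_lin (semi_lin (LinearMap.inl F (Alb A B C) (Alb A B C)))))
    (fun t x => by
      rw [show ((t • x, 0) : V6 A B C) = t • (x, 0) by simp, hs.smul, Prod.smul_fst, Alb.cub_smul,
        map_mul, map_pow, γ.symm_apply_apply])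
    (by
      rintro x y ⟨g, h3, h4⟩
      obtain ⟨g', h5, h6⟩ := hn.exists h3
      rw [← h4, h6, h5.c1, one_mul]
      rfl)
  have h3 : ∀ x, Alb.cub (φ x).1 = γ κ * γ (Alb.cub x.1) := fun x => by
    rw [← map_mul, ← hκ, γ.apply_symm_apply, show x = (x.1, 0) + (0, x.2) by simp, hs.add,
      Prod.fst_add, h2]
    simp
  refine ⟨_, fun h0 => ?_, h3⟩
  obtain ⟨x, hx⟩ := φ.surjective (⟨1, 1, 1, 0, 0, 0⟩, 0)
  have h4 := h3 x
  rw [hx, h0] at h4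
  simp [Alb.cub] at h4

theorem sim_inner (hs : Semi γ φ) (hn : Nm φ) (h1 : ∀ x, (φ (x, 0)).2 = 0)
    (h2 : ∀ y, (φ (0, y)).1 = 0) : ∃ ν₁ ν₂ l, Sim6 γ false ν₁ ν₂ l φ := by
  obtain ⟨ν₁, k1, k2⟩ := cub_fst hs hn h2
  obtain ⟨ν₂, k3, k4⟩ := cub_fst (φ := sw6 * φ * sw6)
    ((Semi.lin_comp (g := sw6) sim6_sw6.semi hs).comp_lin sim6_sw6.semi)
    ((nm_sw.mul hn).mul nm_sw) h1
  have h3 : ∀ v : V6 A B C, φ v = ((φ (v.1, 0)).1, (φ (0, v.2)).2) := fun v => by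
    rw [show φ v = φ (v.1, 0) + φ (0, v.2) by rw [← hs.add]; simp]
    exact Prod.ext (by simp [h2]) (by simp [h1])
  have h4 : Semi γ fun x => (φ (x, 0)).1 :=
    Semi.lin_comp (semi_lin (LinearMap.fst F (Alb A B C) (Alb A B C)))
      (hs.comp_lin (semi_lin (LinearMap.inl F (Alb A B C) (Alb A B C))))
  have h5 : Semi γ fun x => (φ (0, x)).2 :=
    Semi.lin_comp (semi_lin (LinearMap.snd F (Alb A B C) (Alb A B C)))
      (hs.comp_lin (semi_lin (LinearMap.inr F (Alb A B C) (Alb A B C))))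
  obtain ⟨l, hl⟩ := tf_unique (LinearMap.mk₂ F
    (fun x y => γ.symm (Alb.tf (φ (x, 0)).1 (φ (0, y)).2))
    (fun x y z => by rw [h4.add, Alb.tf_add_left, map_add])
    (fun t x y => by rw [h4.smul, Alb.tf_smul_left, map_mul, γ.symm_apply_apply, smul_eq_mul])
    (fun x y z => by rw [h5.add, Alb.tf_add_right, map_add])
    (fun t x y => by rw [h5.smul, Alb.tf_smul_right, map_mul, γ.symm_apply_apply, smul_eq_mul]))
    fun g hg v => by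
      obtain ⟨g', h6, h7⟩ := hn.exists hg
      have h8 := h6.tf (φ v)
      rw [← h7, h3 (g v), h3 v, one_mul] at h8
      exact congrArg γ.symm h8
  have h6 : ∀ x, Alb.tf (φ x).1 (φ x).2 = γ l * γ (Alb.tf x.1 x.2) := fun x => by
    rw [← map_mul, ← hl, h3 x]
    exact (γ.apply_symm_apply _).symm
  refine ⟨ν₁, ν₂, γ l, hs, k2, fun x => k4 x.swap, h6, k1, k3, fun h0 => ?_⟩
  obtain ⟨x, hx⟩ := φ.surjective (Alb.e1, Alb.e1)
  have h7 := h6 x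
  rw [hx, h0] at h7
  simp [Alb.tf, Alb.e1] at h7

/-- **The normalizer.** -/
theorem sim_of_nm (hs : Semi γ φ) (hn : Nm φ) : ∃ ε ν₁ ν₂ l, Sim6 γ ε ν₁ ν₂ l φ := by
  have h0 : Semi (id : F → F) fun x => φ⁻¹ ((φ x).1, 0) := by
    have h := hs.inv.comp (Semi.lin_comp (semi_lin (LinearMap.inl F _ _ ∘ₗ LinearMap.fst F _ _)) hs)
    rwa [inv_mul_cancel] at h
  obtain ⟨l₁, l₂, hl⟩ := comm6 h0.lin fun g hg x => by
    obtain ⟨g', h1, h2⟩ := hn.exists hg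
    have h3 := h1.scal 1 0 (φ x)
    simp only [one_smul, zero_smul, Bool.false_eq_true, if_false, map_one, map_zero] at h3
    change φ⁻¹ ((φ (g x)).1, 0) = g (φ⁻¹ ((φ x).1, 0))
    rw [Perm.inv_eq_iff_eq, h2, h2, ← h3]
    simp
  have h1 : ∀ x, φ (l₁ • x.1, l₂ • x.2) = ((φ x).1, 0) := fun x =>
    (Perm.inv_eq_iff_eq.1 (hl x)).symm
  obtain ⟨u, hu⟩ := _root_.exists_ne (0 : Alb A B C)
  have h2 : ∀ l : F, l • l • u = l • u → l = 0 ∨ l = 1 := fun l h => by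
    rw [smul_smul] at h
    have h3 : l * (l - 1) = 0 := by linear_combination smul_left_injective F hu h
    exact (mul_eq_zero.1 h3).imp id sub_eq_zero.1
  have h3 : ((l₁ • l₁ • u, l₂ • l₂ • u) : V6 A B C) = (l₁ • u, l₂ • u) :=
    φ.injective ((h1 (l₁ • u, l₂ • u)).trans (by rw [h1 (u, u)]))
  obtain ⟨x, hx⟩ := φ.surjective (u, u)
  rcases h2 _ (congrArg Prod.fst h3) with rfl | rfl <;>
    rcases h2 _ (congrArg Prod.snd h3) with rfl | rfl <;>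
    simp only [one_smul, zero_smul] at h1
  · have h4 := h1 x
    rw [hx, show ((0, 0) : V6 A B C) = 0 from rfl, hs.zero] at h4
    exact absurd (congrArg Prod.fst h4).symm hu
  · obtain ⟨_, _, _, h4⟩ := sim_inner (φ := φ * sw6) (hs.comp_lin sim6_sw6.semi) (hn.mul nm_sw)
      (fun y => congrArg Prod.snd (h1 (0, y)))
      fun y => (congrArg Prod.fst (h1 (y, 0))).symm.trans (congrArg Prod.fst hs.zero)
    have h5 := h4.comp (sim6_one.2 sim6_sw6)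
    rw [mul_one] at h5
    exact ⟨_, _, _, _, h5⟩
  · exact ⟨_, sim_inner hs hn (fun y => congrArg Prod.snd (h1 (y, 0)))
      fun y => (congrArg Prod.fst (h1 (0, y))).symm.trans (congrArg Prod.fst hs.zero)⟩
  · have h4 := h1 x
    rw [hx] at h4
    exact absurd (congrArg Prod.snd h4) hu

/-- The saturation of a group which normalizes the group of the cubic norm. -/
theorem exists_dat {F : Type} [Field F] [NumberField F] {A B C : Fˣ}
    {Φ : Subgroup (Perm (V6 A B C))} (h : Form F (S6 A B C) Φ) :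
    ∃ (Γ : Subgroup (Gl F)) (Φ' : Subgroup (Perm (V6 A B C))), Dat6 Γ Φ' ∧
      Pts (S6 A B C) Φ = Pts (S6 A B C) Φ' := by
  have h1 : ∀ φ ∈ Φ, ∃ (γ : Gl F) (ε : Bool) (ν₁ ν₂ l : F), Sim6 γ ε ν₁ ν₂ l φ := fun φ hφ => by
    obtain ⟨g, hg⟩ := h.semi φ hφ
    obtain ⟨γ, rfl⟩ := exists_gl hg
    exact ⟨γ, sim_of_nm hg (h.norm φ hφ)⟩
  let Γ : Subgroup (Gl F) :=
    { carrier := {γ | ∃ φ ∈ Φ, Semi γ φ}
      mul_mem' := by
        rintro γ δ ⟨φ, h2, h3⟩ ⟨ψ, h4, h5⟩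
        exact ⟨φ * ψ, Φ.mul_mem h2 h4, h3.mul h5⟩
      one_mem' := ⟨1, Φ.one_mem, semi_id⟩
      inv_mem' := by
        rintro γ ⟨φ, h2, h3⟩
        exact ⟨φ⁻¹, Φ.inv_mem h2, h3.inv⟩ }
  have h2 : ∀ φ ∈ Φ, ∀ z ∈ Z6 A B C, φ * z * φ⁻¹ ∈ Z6 A B C := fun φ hφ z hz => by
    obtain ⟨_, _, _, _, _, h3⟩ := h1 φ hφ
    exact h3.conj_Z6 hz
  let Φ' : Subgroup (Perm (V6 A B C)) :=
    { carrier := {φ' | ∃ z ∈ Z6 A B C, ∃ φ ∈ Φ, φ' = z * φ}
      mul_mem' := by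
        rintro _ _ ⟨z, h3, φ, h4, rfl⟩ ⟨z', h5, φ', h6, rfl⟩
        exact ⟨_, (Z6 A B C).mul_mem h3 (h2 φ h4 z' h5), _, Φ.mul_mem h4 h6, by group⟩
      one_mem' := ⟨1, (Z6 A B C).one_mem, 1, Φ.one_mem, (one_mul 1).symm⟩
      inv_mem' := by
        rintro _ ⟨z, h3, φ, h4, rfl⟩
        exact ⟨_, h2 _ (Φ.inv_mem h4) _ ((Z6 A B C).inv_mem h3), _, Φ.inv_mem h4, by group⟩ }
  have h3 : ∀ φ' ∈ Φ', ∃ γ ∈ Γ, ∃ ε ν₁ ν₂ l, Sim6 γ ε ν₁ ν₂ l φ' := by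
    rintro _ ⟨z, h3, φ, h4, rfl⟩
    obtain ⟨γ, _, _, _, _, h5⟩ := h1 φ h4
    obtain ⟨_, _, _, h6⟩ := sim6_Z6 h3
    have h7 := (sim6_one.2 h6).comp h5
    rw [one_mul] at h7
    exact ⟨γ, ⟨φ, h4, h5.semi⟩, _, _, _, _, h7⟩
  refine ⟨Γ, Φ', ⟨⟨fun φ hφ => ?_, ?_⟩, h3, ?_, fun z hz => ⟨z, hz, 1, Φ.one_mem, (mul_one z).symm⟩⟩,
    ?_⟩
  · obtain ⟨γ, h4, _, _, _, _, h5⟩ := h3 φ hφ
    exact ⟨γ, h4, h5.semi⟩
  · rintro γ ⟨φ, h4, h5⟩
    exact ⟨φ, ⟨1, (Z6 A B C).one_mem, φ, h4, (one_mul φ).symm⟩, h5⟩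
  · rintro _ ⟨z, h4, φ, h5, rfl⟩ h6
    have h7 : Semi (id : F → F) φ := by
      have h8 := Semi.lin_comp (γ := 1) (semi_Z6 ((Z6 A B C).inv_mem h4)) h6
      rwa [← Perm.coe_mul, inv_mul_cancel_left] at h8
    exact (Z6 A B C).mul_mem h4 (mem_Z6.2 (comm6 h7.lin fun g hg x =>
      DFunLike.congr_fun (h.cent φ h5 h7 g hg) x))
  · ext g
    rw [mem_Pts, mem_Pts]
    refine and_congr_right fun hg => ⟨?_, fun h4 φ hφ =>
      h4 φ ⟨1, (Z6 A B C).one_mem, φ, hφ, (one_mul φ).symm⟩⟩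
    rintro h4 _ ⟨z, h5, φ, h6, rfl⟩
    rw [mul_assoc, h4 φ h6, ← mul_assoc, comm_Z6_S6 h5 hg, mul_assoc]

end nrm

open Vale.Agent.P011.H900

variable {F : Type} [Field F]

/-- The pairs of hermitian matrices in the old and in the new letters. -/
def pe (F : Type) [Field F] : V6 (1 : Fˣ) 1 1 ≃ Al (1 : F) 1 × Al (1 : F) 1 :=
  ((ae 1 1 1).prodCongr (ae 1 1 1)).symm

theorem semi_pe : Semi (id : F → F) (pe F) := fun _ _ _ => (pe F).symm.injective rfl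

theorem cub_pe (x : V6 (1 : Fˣ) 1 1) : cub 1 (pe F x).1 = Alb.cub x.1 ∧
    cub 1 (pe F x).2 = Alb.cub x.2 := ⟨cub_eq (c := 1) _, cub_eq (c := 1) _⟩

theorem trf_pe (x : V6 (1 : Fˣ) 1 1) : trf (pe F x).1 (pe F x).2 = Alb.tf x.1 x.2 := by
  rw [trf, Alb.tf, Fin.sum_univ_three, P011.H900.bil_eq, P011.H900.bil_eq, P011.H900.bil_eq]
  have h : ∀ a b c d e f : F, a + d + (b + e) + (c + f) = a + b + c + d + e + f := by
    intros
    ring
  exact h _ _ _ _ _ _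

theorem mem_E6 [CharZero F] (g : Perm (V6 (1 : Fˣ) 1 1)) :
    g ∈ S6 (1 : Fˣ) 1 1 ↔ (pe F).permCongr g ∈ E6 F := by
  have h1 : ∀ g : Perm (V6 (1 : Fˣ) 1 1), Sim6 id false 1 1 1 g ↔
      Semi (id : F → F) ((pe F).permCongr g) ∧ ∀ x, cub 1 ((pe F).permCongr g x).1 = cub 1 x.1 ∧
        cub 1 ((pe F).permCongr g x).2 = cub 1 x.2 ∧
        trf ((pe F).permCongr g x).1 ((pe F).permCongr g x).2 = trf x.1 x.2 := fun g => by
    rw [(pe F).surjective.forall, ← semi_one, semi_congr semi_pe]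
    simp only [permCongr_apply, symm_apply_apply, (cub_pe _).1, (cub_pe _).2, trf_pe]
    exact ⟨fun h => ⟨h.semi, fun x => ⟨(h.c1 x).trans (one_mul _), (h.c2 x).trans (one_mul _),
      (h.tf x).trans (one_mul _)⟩⟩, fun h => ⟨h.1, fun x => (h.2 x).1.trans (one_mul _).symm,
      fun x => (h.2 x).2.1.trans (one_mul _).symm, fun x => (h.2 x).2.2.trans (one_mul _).symm,
      one_ne_zero, one_ne_zero, one_ne_zero⟩⟩
  refine ⟨fun h => Subgroup.subset_closure ((h1 g).1 (mem_S6.1 h)), fun h => ?_⟩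
  have h2 : E6 F ≤ tr (pe F).symm (S6 1 1 1) := (Subgroup.closure_le _).2 fun f hf => by
    obtain ⟨f, rfl⟩ := (pe F).permCongr.surjective f
    rw [SetLike.mem_coe, mem_tr, congr_symm]
    exact mem_S6.2 ((h1 f).2 hf)
  have h3 := h2 h
  rwa [mem_tr, congr_symm] at h3

/-- **From the normalizer to the similitudes.** -/
theorem n6Stmt : N6Stmt := by
  intro F _ _ Φ h
  obtain ⟨Γ, Φ', h1, h2⟩ := exists_dat (Φ := tr (pe F) Φ)
    ⟨fun φ hφ => by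
      obtain ⟨g, hg⟩ := h.semi _ hφ
      obtain ⟨γ, rfl⟩ := exists_gl hg
      exact ⟨γ, (semi_congr semi_pe).1 hg⟩,
    fun φ hφ g hg => by
      have h1 := h.norm _ hφ _ ((mem_E6 g).1 hg)
      rw [mem_E6]
      convert h1 using 1
      exact (map_mul (pe F).permCongrHom _ _).trans (congrArg₂ _ (map_mul (pe F).permCongrHom _ _)
        (map_inv (pe F).permCongrHom _)),
    fun φ hφ hs g hg => (pe F).permCongrHom.injective (by
      rw [map_mul, map_mul]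
      exact h.cent _ hφ ((semi_congr (γ := 1) semi_pe).2 hs) _ ((mem_E6 g).1 hg))⟩
  exact ⟨Γ, Φ', h1, h2 ▸ (uiso_tr (semi_one.2 semi_pe).sub mem_E6).symm⟩

end Vale.Agent.P011N.Cl.N6
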